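import Vale.Agent.P321Z.Upper
import Vale.Agent.P321Z.Lower
import Vale.Agent.P321.H79.Fin

/-!
Worst-case trace reconstruction, for all success probabilities `s` between
`exp (-(log n) ^ (1 + 1/47))` and `1 - exp (-n)`: lower bound `exp ((log n) ^ (1 + 1/47))`,
upper bound `exp (C / (1 - q) * (log n) ^ a)` for every `a > 2`, and a polynomial upper bound for
`q ≤ n ^ (-δ)`.
-/

namespace Vale.Agent.Results.P321.AllBounds

open Vale.Agent.P321 Vale.Agent.P321Z Filter Topology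
open scoped unitInterval

theorem upper_s {a : ℝ} (ha : 2 < a) : ∃ C : ℝ, 0 < C ∧ ∀ q : I, (q : ℝ) < 1 → ∀ n : ℕ, 2 ≤ n →
    ∀ s : ℝ, s ≤ 1 - Real.exp (-n) →
      Ts q s n ≤ (⌊Real.exp (C / (1 - q) * (Real.log n) ^ a)⌋₊ : ℕ∞) := by
  obtain ⟨C, hC, h⟩ := H778.exp_two ha
  have hl2 : 0 < Real.log 2 := Real.log_pos (by norm_num)
  have hp : 0 < (Real.log 2) ^ (a - 1) := Real.rpow_pos_of_pos hl2 _
  refine ⟨2 * C + 13 / (Real.log 2) ^ (a - 1), by positivity, fun q hq n hn s hs => ?_⟩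
  have hnR : (2 : ℝ) ≤ n := by exact_mod_cast hn
  have hL : Real.log 2 ≤ Real.log n := Real.log_le_log (by norm_num) hnR
  have hL0 : 0 < Real.log n := by linarith
  have h1q : 0 < 1 - (q : ℝ) := by linarith
  have hLa : 0 < (Real.log n) ^ a := Real.rpow_pos_of_pos hL0 _
  refine (Ts_le_of_T q hn (by positivity) (h q hq n hn) hs).trans ?_
  have e1 : 13 * Real.log n ≤ 13 / (Real.log 2) ^ (a - 1) / (1 - q) * (Real.log n) ^ a := by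
    have f1 : (Real.log 2) ^ (a - 1) ≤ (Real.log n) ^ (a - 1) :=
      Real.rpow_le_rpow hl2.le hL (by linarith)
    have f2 : (Real.log n) ^ a = (Real.log n) ^ (a - 1) * Real.log n := by
      rw [← Real.rpow_add_one hL0.ne']; ring_nf
    have f3 : 13 * Real.log n ≤ 13 / (Real.log 2) ^ (a - 1) * (Real.log n) ^ a := by
      rw [f2, div_mul_eq_mul_div, le_div_iff₀ hp]
      nlinarith
    refine f3.trans (mul_le_mul_of_nonneg_right ?_ hLa.le)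
    rw [le_div_iff₀ h1q]
    have : 0 ≤ 13 / (Real.log 2) ^ (a - 1) := by positivity
    nlinarith [q.2.1]
  have e2 : 2 * (C / (1 - q) * (Real.log n) ^ a) + 13 * Real.log n ≤
      (2 * C + 13 / (Real.log 2) ^ (a - 1)) / (1 - q) * (Real.log n) ^ a := by
    have : (2 * C + 13 / (Real.log 2) ^ (a - 1)) / (1 - q) * (Real.log n) ^ a =
        2 * (C / (1 - q) * (Real.log n) ^ a) +
          13 / (Real.log 2) ^ (a - 1) / (1 - q) * (Real.log n) ^ a := by ring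
    linarith
  exact_mod_cast Nat.floor_le_floor (Real.exp_le_exp.2 e2)

theorem small_s {δ : ℝ} (hδ : 0 < δ) : ∃ C : ℝ, 0 < C ∧ ∀ n : ℕ, 2 ≤ n → ∀ q : I,
    (q : ℝ) ≤ (n : ℝ) ^ (-δ) → ∀ s : ℝ, s ≤ 1 - Real.exp (-n) →
      Ts q s n ≤ (⌊(n : ℝ) ^ C⌋₊ : ℕ∞) := by
  obtain ⟨C, hC, h⟩ := H79.T_poly hδ
  refine ⟨2 * C + 13, by positivity, fun n hn q hq s hs => ?_⟩
  have hnR : (2 : ℝ) ≤ n := by exact_mod_cast hn
  have hn0 : (0 : ℝ) < n := by linarith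
  have hL0 : 0 < Real.log n := Real.log_pos (by linarith)
  have h1 := h n hn q hq
  rw [Real.rpow_def_of_pos hn0] at h1
  have h2 := Ts_le_of_T q hn (by positivity) h1 hs
  rw [Real.rpow_def_of_pos hn0]
  have e : 2 * (Real.log n * C) + 13 * Real.log n = Real.log n * (2 * C + 13) := by ring
  rwa [e] at h2

theorem result :
    (∀ q : I, 0 < (q : ℝ) → (q : ℝ) < 1 → ∀ a : ℝ, 2 < a → ∃ n₀ : ℕ, ∀ n : ℕ, n₀ ≤ n →
      (⌈Real.exp ((Real.log n) ^ (1 + 1 / 47 : ℝ))⌉₊ : ℕ∞) ≤ T q n ∧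
      T q n ≤ (⌊Real.exp ((Real.log n) ^ a)⌋₊ : ℕ∞)) ∧
    (∀ (q : I) (n : ℕ), T q n = Ts q (2 / 3) n) ∧
    (∃ c : ℝ, 0 < c ∧ ∃ n₀ : ℕ, ∀ n : ℕ, n₀ ≤ n → ∀ q : I, (Real.log n) ^ (-c) ≤ (q : ℝ) →
      ∀ s : ℝ, Real.exp (-(Real.log n) ^ (1 + 1 / 47 : ℝ)) ≤ s →
        (⌈Real.exp ((Real.log n) ^ (1 + 1 / 47 : ℝ))⌉₊ : ℕ∞) ≤ Ts q s n) ∧
    (∀ a : ℝ, 2 < a → ∃ C : ℝ, 0 < C ∧ ∀ q : I, (q : ℝ) < 1 → ∀ n : ℕ, 2 ≤ n →
      ∀ s : ℝ, s ≤ 1 - Real.exp (-n) →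
        Ts q s n ≤ (⌊Real.exp (C / (1 - q) * (Real.log n) ^ a)⌋₊ : ℕ∞)) ∧
    ∀ δ : ℝ, 0 < δ → ∃ C : ℝ, 0 < C ∧ ∀ n : ℕ, 2 ≤ n → ∀ q : I, (q : ℝ) ≤ (n : ℝ) ^ (-δ) →
      ∀ s : ℝ, s ≤ 1 - Real.exp (-n) → Ts q s n ≤ (⌊(n : ℝ) ^ C⌋₊ : ℕ∞) := by
  refine ⟨fun q h0 h1 a ha => ?_, T_eq_Ts, lower_s, fun _ ha => upper_s ha,
    fun _ hδ => small_s hδ⟩
  obtain ⟨c, hc, n₀, h⟩ := lower_s
  obtain ⟨C, hC, hup⟩ := H778.exp_two (α := (a + 2) / 2) (by linarith)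
  have hlog : Tendsto (fun n : ℕ => Real.log (n : ℝ)) atTop atTop :=
    Real.tendsto_log_atTop.comp tendsto_natCast_atTop_atTop
  have t0 : Tendsto (fun n : ℕ => (Real.log (n : ℝ)) ^ (-c)) atTop (nhds 0) :=
    (tendsto_rpow_neg_atTop hc).comp hlog
  have ev1 := hlog.eventually (MA.ev_pow_le (C / (1 - q)) ((a + 2) / 2) a (by linarith))
  suffices hs : ∀ᶠ n : ℕ in atTop,
      (⌈Real.exp ((Real.log n) ^ (1 + 1 / 47 : ℝ))⌉₊ : ℕ∞) ≤ T q n ∧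
      T q n ≤ (⌊Real.exp ((Real.log n) ^ a)⌋₊ : ℕ∞) from eventually_atTop.mp hs
  filter_upwards [t0.eventually (gt_mem_nhds h0), ev1, hlog.eventually_ge_atTop 1,
    eventually_ge_atTop n₀, eventually_ge_atTop 2] with n g1 g2 g3 g4 g5
  refine ⟨?_, (hup q h1 n g5).trans ?_⟩
  · rw [T_eq_Ts]
    refine h n g4 q g1.le _ ?_
    have a1 : 1 ≤ (Real.log n) ^ (1 + 1 / 47 : ℝ) := Real.one_le_rpow g3 (by norm_num)
    have a2 : Real.exp (-1) ≤ 1 / 2 := by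
      rw [Real.exp_neg, ← one_div]
      apply one_div_le_one_div_of_le (by norm_num)
      have := Real.add_one_le_exp (1 : ℝ)
      linarith
    have a3 := Real.exp_le_exp.2 (neg_le_neg a1)
    linarith
  · exact_mod_cast Nat.floor_le_floor (Real.exp_le_exp.2 g2)

end Vale.Agent.Results.P321.AllBounds
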